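import Mathlib

/-!
# P088, local rigidity of the flat metric: definitions and rows
-/

open MeasureTheory Set
open scoped ContDiff Matrix

noncomputable section

namespace Vale.Agent.P088.LR

/-- Points of `ℝ^n`. -/
abbrev V (n : ℕ) := Fin n → ℝ

/-- Matrix fields on `ℝ^n`. -/
abbrev MF (n : ℕ) := V n → Matrix (Fin n) (Fin n) ℝ

variable {n : ℕ}

/-- The partial derivative `∂_i f`. -/
def pd {F : Type*} [NormedAddCommGroup F] [NormedSpace ℝ F] (i : Fin n) (f : V n → F) (x : V n) :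
    F := fderiv ℝ f x (Pi.single i 1)

/-- Smooth matrix field. -/
def SmM (s : MF n) : Prop := ∀ i j, ContDiff ℝ ∞ (fun x => s x i j)

/-- `∫_Ω s(∇u, ∇v)`, complex bilinear. -/
def bl (Ω : Set (V n)) (s : MF n) (u v : V n → ℂ) : ℂ :=
  ∫ x in Ω, ∑ i, ∑ j, (s x i j : ℂ) * pd i u x * pd j v x

/-- `u` is smooth, `u = f` on `∂Ω` and `div (s ∇ u) = 0` in `Ω` (weakly). -/
def Hm (Ω : Set (V n)) (s : MF n) (f u : V n → ℂ) : Prop :=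
  ContDiff ℝ ∞ u ∧ (∀ x ∈ frontier Ω, u x = f x) ∧
    ∀ φ : V n → ℂ, ContDiff ℝ ∞ φ → (∀ x ∈ frontier Ω, φ x = 0) → bl Ω s u φ = 0

/-- The Dirichlet-to-Neumann forms of `s₁` and `s₂` on `∂Ω` are equal. -/
def SD (Ω : Set (V n)) (s₁ s₂ : MF n) : Prop :=
  ∀ f h : V n → ℂ, ContDiff ℝ ∞ f → ContDiff ℝ ∞ h → ∃ u v u' v',
    Hm Ω s₁ f u ∧ Hm Ω s₁ h v ∧ Hm Ω s₂ f u' ∧ Hm Ω s₂ h v' ∧ bl Ω s₁ u v = bl Ω s₂ u' v'

/-- `div (s ∇ W)`. -/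
def dv (s : MF n) (W : V n → ℂ) (x : V n) : ℂ :=
  ∑ i, pd i (fun y => ∑ j, (s y i j : ℂ) * pd j W y) x

/-- `∫_Ω (s - 1)(∇U, ∇W) = 0` for `ΔU = 0`, `div (s ∇ W) = 0` in `Ω`. -/
def Star (Ω : Set (V n)) (s : MF n) : Prop :=
  ∀ U W : V n → ℂ, ContDiff ℝ ∞ U → ContDiff ℝ ∞ W →
    (∀ x ∈ Ω, dv (fun _ => 1) U x = 0) → (∀ x ∈ Ω, dv s W x = 0) → bl Ω (fun x => s x - 1) U W = 0

/-! ## Fourier series -/

/-- Indices. -/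
abbrev Ix (n : ℕ) := Fin n → ℤ

/-- The weight `1 + |k|_1`. -/
def wt (k : Ix n) : ℝ := 1 + ∑ j, |(k j : ℝ)|

/-- Rapidly decreasing. -/
def RD (c : Ix n → ℂ) : Prop := ∀ m : ℕ, Summable fun k => wt k ^ m * ‖c k‖

/-- Weighted `ℓ¹` norm. -/
def nm (m : ℕ) (c : Ix n → ℂ) : ℝ := ∑' k, wt k ^ m * ‖c k‖

/-- `e^{2πi ξ·x}`. -/
def ex (ξ x : V n) : ℂ := Complex.exp (2 * Real.pi * Complex.I * ((∑ j, ξ j * x j : ℝ) : ℂ))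

/-- The frequency `k + θ`. -/
def fr (θ : V n) (k : Ix n) : V n := fun j => (k j : ℝ) + θ j

/-- `∑_k c_k e^{2πi (k+θ)·x}`. -/
def Es (θ : V n) (c : Ix n → ℂ) (x : V n) : ℂ := ∑' k, c k * ex (fr θ k) x

/-- Fourier transform. -/
def ft (f : V n → ℂ) (ξ : V n) : ℂ := ∫ x, f x * ex (-ξ) x

/-- Coefficients with shift `θ`. -/
def cf (θ : V n) (f : V n → ℂ) (k : Ix n) : ℂ := ft f (fr θ k)

/-- Convolution. -/
def cv (c d : Ix n → ℂ) (k : Ix n) : ℂ := ∑' l, c (k - l) * d l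

/-- The open unit cube. -/
def cube (n : ℕ) : Set (V n) := {x | ∀ j, 0 < x j ∧ x j < 1}

/-- The compact core of the cube. -/
def core (n : ℕ) : Set (V n) := {x | ∀ j, 1 / 4 ≤ x j ∧ x j ≤ 3 / 4}

/-- The entries of `s - 1`. -/
def ent (s : MF n) (i j : Fin n) (x : V n) : ℂ := ((s x i j - (1 : Matrix (Fin n) (Fin n) ℝ) i j : ℝ) : ℂ)

/-- All derivatives up to order `k` are bounded by `ε`. -/
def Cl {F : Type*} [NormedAddCommGroup F] [NormedSpace ℝ F] (k : ℕ) (ε : ℝ) (f : V n → F) : Prop :=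
  ∀ l ≤ k, ∀ x, ‖iteratedFDeriv ℝ l f x‖ ≤ ε

/-! ## Change of variables `H = id + w`, `K = H⁻¹` -/

/-- The Jacobian matrix of `H x = x + w x`. -/
def jm (w : V n → V n) (x : V n) : Matrix (Fin n) (Fin n) ℝ :=
  fun i j => (1 : Matrix (Fin n) (Fin n) ℝ) i j + pd j w x i

/-- The push-forward of the density valued tensor `s` under `H = id + w`, with `K = H⁻¹`. -/
def psh (s : MF n) (w K : V n → V n) : MF n := fun y =>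
  (jm w (K y)).det⁻¹ • (jm w (K y) * s (K y) * (jm w (K y))ᵀ)

/-- `H = id + w` is a diffeomorphism with inverse `K` and equals the identity off `Ω`. -/
structure Dif (Ω : Set (V n)) (w K : V n → V n) : Prop where
  sw : ContDiff ℝ ∞ w
  sK : ContDiff ℝ ∞ K
  l : ∀ x, K (x + w x) = x
  r : ∀ y, K y + w (K y) = y
  z : ∀ x ∉ Ω, w x = 0
  dp : ∀ x, 0 < (jm w x).det

/-- `√(det g) g⁻¹`. -/
def sg (g : MF n) : MF n := fun x => √(g x).det • (g x)⁻¹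

/-! ## Rows (literal statements) -/

/-- (A1) series are smooth, termwise derivative. -/
def RowA1 : Prop := ∀ {n : ℕ} (θ : V n) (c : Ix n → ℂ), RD c → ContDiff ℝ ∞ (Es θ c) ∧
  ∀ i x, pd i (Es θ c) x = Es θ (fun k => 2 * Real.pi * Complex.I * ((fr θ k i : ℝ) : ℂ) * c k) x

/-- (A2) products and convolutions. -/
def RowA2 : Prop := ∀ {n : ℕ} (θ θ' : V n) (c d : Ix n → ℂ), RD c → RD d → RD (cv c d) ∧
  (∀ k, Summable fun l => c (k - l) * d l) ∧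
  (∀ x, Es θ c x * Es θ' d x = Es (θ + θ') (cv c d) x) ∧ ∀ m, nm m (cv c d) ≤ nm m c * nm m d

/-- (A3) expansion on the cube of a smooth function supported in the cube, any shift; bounds. -/
def RowA3 : Prop := ∀ (n m : ℕ), ∃ C : ℝ, 0 < C ∧ ∀ (f : V n → ℂ), ContDiff ℝ ∞ f →
  tsupport f ⊆ cube n → ∀ θ : V n, (∀ j, |θ j| ≤ 1) → RD (cf θ f) ∧
    (∀ x ∈ cube n, f x = Es θ (cf θ f) x) ∧
    ∀ B, Cl (m + n + 1) B f → nm m (cf θ f) ≤ C * B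

/-- (A4) shifted coefficients are controlled by the unshifted ones. -/
def RowA4 : Prop := ∀ (n : ℕ), ∃ C : ℝ, 0 < C ∧ ∀ (f : V n → ℂ), ContDiff ℝ ∞ f →
  (∀ x ∉ core n, f x = 0) → ∀ θ : V n, (∀ j, |θ j| ≤ 1) → nm 0 (cf θ f) ≤ C * nm 0 (cf 0 f)

/-- (NEU) vector valued Neumann series in `ℓ¹`, rapidly decreasing solution. -/
def RowNEU : Prop := ∀ {n d : ℕ} (M : Ix n → Ix n → Fin d → Fin d → ℂ) (γ : Ix n → ℝ)
  (b : Ix n → Fin d → ℂ), (∀ m : ℕ, Summable fun k => wt k ^ m * γ k) → (∀ k, 0 ≤ γ k) →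
  (∀ k l i, ∑ j, ‖M k l j i‖ ≤ γ (k - l)) → (∀ i, RD fun k => b k i) →
  ∀ m₀ : ℕ, ∑' k, wt k ^ m₀ * γ k ≤ 1 / 2 →
  ∃ y : Ix n → Fin d → ℂ, (∀ i, RD fun k => y k i) ∧
    (∀ k i, y k i = b k i + ∑' l, ∑ j, M k l i j * y l j) ∧
    ∀ m ≤ m₀, (∑ i, nm m fun k => y k i) ≤ 2 * ∑ i, nm m fun k => b k i

/-- (WEAK) pointwise equation implies the weak equation. -/
def RowWEAK : Prop := ∀ {n : ℕ} (Ω : Set (V n)), IsOpen Ω → Bornology.IsBounded Ω →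
  ∀ s : MF n, SmM s → (∀ x, (s x).IsSymm) → ∀ W φ : V n → ℂ, ContDiff ℝ ∞ W → ContDiff ℝ ∞ φ →
  (∀ x ∈ Ω, dv s W x = 0) → (∀ x ∈ frontier Ω, φ x = 0) → bl Ω s W φ = 0

/-- (STAR) equal data give the orthogonality identity. -/
def RowSTAR : Prop := ∀ {n : ℕ} (Ω : Set (V n)), IsOpen Ω → Bornology.IsBounded Ω →
  ∀ s : MF n, SmM s → (∀ x, (s x).IsSymm) → SD Ω (fun _ => 1) s → Star Ω s

/-- (EST) complex geometric optics: the basic estimate of the quadratic form `ft (s - 1) ξ` on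
integer vectors orthogonal to the integer vector `ξ`. -/
def RowEST : Prop := ∀ (n : ℕ), ∃ C : ℝ, 0 < C ∧ ∀ (Ω : Set (V n)), IsOpen Ω → Ω ⊆ core n →
  ∀ s : MF n, SmM s → (∀ x, (s x).IsSymm) → (∀ x ∉ Ω, s x = 1) →
  (∀ (ξ : V n) j, ∑ i, (ξ i : ℂ) * ft (ent s i j) ξ = 0) → Star Ω s →
  ∀ a, a = ∑ i, ∑ j, nm 0 (cf 0 (ent s i j)) → ∀ ξ q : Ix n, ξ ≠ 0 → ∑ j, q j * ξ j = 0 →
  wt q ≤ 4 * wt ξ ^ 2 → C * wt ξ ^ 8 * a ≤ 1 →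
  ‖∑ i, ∑ j, (q i : ℂ) * q j * ft (ent s i j) (fr 0 ξ)‖ ≤ C * wt ξ ^ 16 * a ^ 2

/-- (CORE) `s = 1`. -/
def RowCORE : Prop := ∀ (n : ℕ), ∃ (m : ℕ) (ε : ℝ), 0 < ε ∧ ∀ (Ω : Set (V n)), IsOpen Ω →
  Ω ⊆ core n → ∀ s : MF n, SmM s → (∀ x, (s x).IsSymm) → (∀ x ∉ Ω, s x = 1) →
  (∀ (ξ : V n) j, ∑ i, (ξ i : ℂ) * ft (ent s i j) ξ = 0) → Star Ω s →
  (∀ i j, nm m (cf 0 (ent s i j)) ≤ ε) → ∀ x, s x = 1

/-- (GAUGE) harmonic coordinates `x + w x`. -/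
def RowGAUGE : Prop := ∀ (n M : ℕ), ∃ C ε₀ : ℝ, 0 < C ∧ 0 < ε₀ ∧ ∀ (Ω : Set (V n)), IsOpen Ω →
  interior (closure Ω) = Ω → Ω ⊆ core n → ∀ s : MF n, SmM s → (∀ x, (s x).IsSymm) →
  (∀ x ∉ Ω, s x = 1) → Star Ω s → ∀ δ ≤ ε₀, (∀ i j, nm M (cf 0 (ent s i j)) ≤ δ) →
  ∃ w : V n → V n, ContDiff ℝ ∞ w ∧ (∀ x ∉ Ω, w x = 0) ∧ Cl (M + 1) (C * δ) w ∧
    ∀ a x, dv s (fun y => ((y a + w y a : ℝ) : ℂ)) x = 0

/-- (DIF) `id + w` is a diffeomorphism if `w` is small; composition with the inverse. -/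
def RowDIF : Prop := ∀ (n k : ℕ), ∃ C ε₀ : ℝ, 0 < C ∧ 0 < ε₀ ∧ ∀ (Ω : Set (V n))
  (w : V n → V n), ContDiff ℝ ∞ w → (∀ x ∉ Ω, w x = 0) → Cl (k + 1) ε₀ w → ∃ K, Dif Ω w K ∧
    ∀ (f : V n → ℝ), ContDiff ℝ ∞ f → ∀ δ, Cl k δ f → Cl k (C * δ) (fun y => f (K y))

/-- (PUSH) the push-forward: smooth, symmetric, `1` off `Ω`, same data, divergence free. -/
def RowPUSH : Prop := ∀ {n : ℕ} (Ω : Set (V n)), IsOpen Ω → Bornology.IsBounded Ω →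
  interior (closure Ω) = Ω → ∀ s : MF n, SmM s → (∀ x, (s x).IsSymm) → (∀ x ∉ Ω, s x = 1) →
  ∀ w K, Dif Ω w K → SmM (psh s w K) ∧ (∀ x, (psh s w K x).IsSymm) ∧
    (∀ x ∉ Ω, psh s w K x = 1) ∧ (SD Ω (fun _ => 1) s → SD Ω (fun _ => 1) (psh s w K)) ∧
    ((∀ a x, dv s (fun y => ((y a + w y a : ℝ) : ℂ)) x = 0) →
      ∀ (ξ : V n) j, ∑ i, (ξ i : ℂ) * ft (ent (psh s w K) i j) ξ = 0)

/-- (NORM1) `psh s w K - 1` is small if `s - 1` and `w` are small. -/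
def RowNORM1 : Prop := ∀ (n k : ℕ) (ε : ℝ), 0 < ε → ∃ δ > 0, ∀ (Ω : Set (V n)) (s : MF n)
  (w K : V n → V n) (C : ℝ), SmM s → Dif Ω w K →
  (∀ (f : V n → ℝ), ContDiff ℝ ∞ f → ∀ δ, Cl k δ f → Cl k (C * δ) (fun y => f (K y))) →
  (∀ i j, Cl k δ (fun x => s x i j - (1 : Matrix (Fin n) (Fin n) ℝ) i j)) → Cl (k + 1) δ w →
  ∀ i j, Cl k (C * ε) (fun x => psh s w K x i j - (1 : Matrix (Fin n) (Fin n) ℝ) i j)

/-- (NORM0) `√(det g) g⁻¹ - 1` is small if `g - 1` is small. -/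
def RowNORM0 : Prop := ∀ (n k : ℕ) (ε : ℝ), 0 < ε → ∃ δ > 0, ∀ (g : MF n), SmM g →
  (∀ i j, Cl k δ (fun x => g x i j - (1 : Matrix (Fin n) (Fin n) ℝ) i j)) →
  ∀ i j, Cl k ε (fun x => sg g x i j - (1 : Matrix (Fin n) (Fin n) ℝ) i j)

/-- (ISO) the conclusion. -/
def RowISO : Prop := ∀ {n : ℕ}, 3 ≤ n → ∀ (Ω : Set (V n)) (g : MF n), SmM g →
  (∀ x, (g x).PosDef) → ∀ w K, Dif Ω w K → (∀ x, psh (sg g) w K x = 1) →
  ∀ x, g x = (jm w x)ᵀ * jm w x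

end Vale.Agent.P088.LR
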